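import Vale.Agent.Lib.P245.Final

/-!
# P245: entropy-level log-Sobolev inequality and a bound on `K_n` through the Poincare constant

For a centered log-concave probability measure with a Lebesgue density, linearly `a`-subgaussian:
(i) with `∫ f² = 1` and `H = Ent(f²)` one has `H ≤ 4 a² max(32, 23 √(n/H)) ∫ |Df|²`, with no other
hypothesis;
(ii) if `Var f ≤ C_P ∫ |Df|²` on `C_c^∞` then `Ent(f²) ≤ (256 a² + 200 (a⁴ n C_P)^{1/3} + 8 C_P) ∫ |Df|²`.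
-/

open MeasureTheory Real
open scoped InnerProductSpace ContDiff

namespace Vale.Agent.Results.P245.A_LevelLSI

open Vale.Agent.Lib.P245

theorem result {n : ℕ} {ρ : E n → ℝ} (hρ : IsLogConcaveDensity ρ) {μ : Measure (E n)}
    [IsProbabilityMeasure μ] (hμ : μ = volume.withDensity (fun x => ENNReal.ofReal (ρ x)))
    (hc : ∫ x, x ∂μ = 0) {a : ℝ} (ha : 0 < a) (hs : LinSubgaussian μ a) :
    (∀ f : E n → ℝ, ContDiff ℝ ∞ f → HasCompactSupport f → ∫ x, f x ^ 2 ∂μ = 1 →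
      Ent μ (fun x => f x ^ 2) ≤
        4 * a ^ 2 * max 32 (23 * Real.sqrt (n / Ent μ (fun x => f x ^ 2))) *
          ∫ x, ‖fderiv ℝ f x‖ ^ 2 ∂μ) ∧
    (∀ CP : ℝ, 0 < CP →
      (∀ f : E n → ℝ, ContDiff ℝ ∞ f → HasCompactSupport f →
        ∫ x, f x ^ 2 ∂μ - (∫ x, f x ∂μ) ^ 2 ≤ CP * ∫ x, ‖fderiv ℝ f x‖ ^ 2 ∂μ) →
      ∀ f : E n → ℝ, ContDiff ℝ ∞ f → HasCompactSupport f →
        Ent μ (fun x => f x ^ 2) ≤
          (256 * a ^ 2 + 200 * (a ^ 4 * n * CP) ^ ((1 : ℝ) / 3) + 8 * CP) *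
            ∫ x, ‖fderiv ℝ f x‖ ^ 2 ∂μ) :=
  final_main hρ hμ hc ha hs

end Vale.Agent.Results.P245.A_LevelLSI
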